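import Mathlib
import Vale.Agent.P260.H493.Defs

/-!
P260 (helper708), module M6, part 1: the anti-automorphism `bar`, adjoint maps of free modules,
degrees.
-/

namespace Vale.Agent.P260.H708

open Vale.Agent.P260.H493

variable {k Γ : Type} [Field k] [Group Γ]

/-! ### the anti-automorphism -/

/-- the anti-automorphism `g ↦ g⁻¹` -/
noncomputable def bar (a : MonoidAlgebra k Γ) : MonoidAlgebra k Γ :=
  MonoidAlgebra.ofCoeff (a.coeff.equivMapDomain (Equiv.inv Γ))

lemma bar_coeff (a : MonoidAlgebra k Γ) (g : Γ) : (bar a).coeff g = a.coeff g⁻¹ := by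
  simp [bar, Finsupp.equivMapDomain_apply]

lemma bar_zero : bar (0 : MonoidAlgebra k Γ) = 0 := by
  ext g
  simp [bar_coeff]

lemma bar_add (a b : MonoidAlgebra k Γ) : bar (a + b) = bar a + bar b := by
  ext g
  simp [bar_coeff]

lemma bar_sub (a b : MonoidAlgebra k Γ) : bar (a - b) = bar a - bar b := by
  ext g
  simp [bar_coeff]

lemma bar_smul (c : k) (a : MonoidAlgebra k Γ) : bar (c • a) = c • bar a := by
  ext g
  simp [bar_coeff]

lemma bar_single (g : Γ) (r : k) :
    bar (MonoidAlgebra.single g r) = MonoidAlgebra.single g⁻¹ r := by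
  classical
  ext h
  rw [bar_coeff, MonoidAlgebra.coeff_single, MonoidAlgebra.coeff_single, Finsupp.single_apply,
    Finsupp.single_apply]
  by_cases e : g = h⁻¹
  · subst e
    simp
  · rw [if_neg e, if_neg (fun h' => e (by rw [← h', inv_inv]))]

lemma bar_one : bar (1 : MonoidAlgebra k Γ) = 1 := by
  rw [MonoidAlgebra.one_def, bar_single, inv_one]

lemma bar_bar (a : MonoidAlgebra k Γ) : bar (bar a) = a := by
  ext g
  simp [bar_coeff]

lemma bar_mul (a b : MonoidAlgebra k Γ) : bar (a * b) = bar b * bar a := by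
  induction a using MonoidAlgebra.induction_linear with
  | zero => simp [bar_zero]
  | add x y hx hy => rw [add_mul, bar_add, hx, hy, bar_add, mul_add]
  | single g r =>
    induction b using MonoidAlgebra.induction_linear with
    | zero => simp [bar_zero]
    | add x y hx hy => rw [mul_add, bar_add, hx, hy, bar_add, add_mul]
    | single h s =>
      rw [MonoidAlgebra.single_mul_single, bar_single, bar_single, bar_single,
        MonoidAlgebra.single_mul_single, mul_inv_rev, mul_comm r s]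

lemma bar_sum {ι : Type} (s : Finset ι) (f : ι → MonoidAlgebra k Γ) :
    bar (∑ i ∈ s, f i) = ∑ i ∈ s, bar (f i) := by
  classical
  induction s using Finset.induction_on with
  | empty => simp [bar_zero]
  | insert a s ha ih => rw [Finset.sum_insert ha, Finset.sum_insert ha, bar_add, ih]

/-! ### expansion in a basis -/

section

variable {ι κ μ : Type} [Fintype ι] [DecidableEq ι]

lemma map_expand {M : Type} [AddCommGroup M] [Module (MonoidAlgebra k Γ) M]
    (T : (ι → MonoidAlgebra k Γ) →ₗ[MonoidAlgebra k Γ] M) (v : ι → MonoidAlgebra k Γ) :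
    T v = ∑ i, v i • T (Pi.single i 1) := by
  have h : v = ∑ i, v i • (Pi.single i 1 : ι → MonoidAlgebra k Γ) := by
    funext j
    rw [Finset.sum_apply, Finset.sum_eq_single j]
    · simp
    · intro i _ hij
      simp [hij.symm]
    · simp
  conv_lhs => rw [h]
  rw [map_sum]
  exact Finset.sum_congr rfl fun i _ => by rw [map_smul]

lemma map_apply (T : (ι → MonoidAlgebra k Γ) →ₗ[MonoidAlgebra k Γ] (κ → MonoidAlgebra k Γ))
    (v : ι → MonoidAlgebra k Γ) (j : κ) :
    T v j = ∑ i, v i * T (Pi.single i 1) j := by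
  rw [map_expand T v, Finset.sum_apply]
  rfl

lemma ext_basis {M : Type} [AddCommGroup M] [Module (MonoidAlgebra k Γ) M]
    {T S : (ι → MonoidAlgebra k Γ) →ₗ[MonoidAlgebra k Γ] M}
    (h : ∀ i, T (Pi.single i 1) = S (Pi.single i 1)) : T = S := by
  refine LinearMap.ext fun v => ?_
  rw [map_expand T v, map_expand S v]
  exact Finset.sum_congr rfl fun i _ => by rw [h]

end

/-! ### degrees -/

section

variable {ψ : Γ →* Multiplicative ℤ} {ι κ μ : Type}

lemma deg_mul (ψ : Γ →* Multiplicative ℤ) (g h : Γ) : deg ψ (g * h) = deg ψ g + deg ψ h := by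
  simp [deg]

lemma deg_inv (ψ : Γ →* Multiplicative ℤ) (g : Γ) : deg ψ g⁻¹ = -deg ψ g := by
  simp [deg]

lemma deg_inv_char (ψ : Γ →* Multiplicative ℤ) (g : Γ) : deg ψ⁻¹ g = -deg ψ g := by
  simp [deg]

lemma deg_one (ψ : Γ →* Multiplicative ℤ) : deg ψ 1 = 0 := by
  simp [deg]

lemma Ge_zero (c : ℤ) : Ge ψ c (0 : ι → MonoidAlgebra k Γ) := by
  intro i g h
  simp at h

lemma ge_add {c : ℤ} {v w : ι → MonoidAlgebra k Γ} (hv : Ge ψ c v) (hw : Ge ψ c w) :
    Ge ψ c (v + w) := by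
  intro i g h
  by_cases h1 : (v i).coeff g = 0
  · refine hw i g fun h2 => h ?_
    rw [Pi.add_apply, MonoidAlgebra.coeff_add, Finsupp.add_apply, h1, h2, add_zero]
  · exact hv i g h1

lemma ge_neg {c : ℤ} {v : ι → MonoidAlgebra k Γ} (hv : Ge ψ c v) : Ge ψ c (-v) := by
  intro i g h
  refine hv i g fun h2 => h ?_
  rw [Pi.neg_apply, MonoidAlgebra.coeff_neg, Finsupp.neg_apply, h2, neg_zero]

lemma ge_sub {c : ℤ} {v w : ι → MonoidAlgebra k Γ} (hv : Ge ψ c v) (hw : Ge ψ c w) :
    Ge ψ c (v - w) := by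
  rw [sub_eq_add_neg]
  exact ge_add hv (ge_neg hw)

lemma ge_sum {c : ℤ} {α : Type} (s : Finset α) {v : α → ι → MonoidAlgebra k Γ}
    (hv : ∀ a ∈ s, Ge ψ c (v a)) : Ge ψ c (∑ a ∈ s, v a) := by
  classical
  induction s using Finset.induction_on with
  | empty => simpa using Ge_zero c
  | insert a s ha ih =>
    rw [Finset.sum_insert ha]
    exact ge_add (hv a (Finset.mem_insert_self _ _))
      (ih fun b hb => hv b (Finset.mem_insert_of_mem hb))

lemma ge_mono {c c' : ℤ} (h : c' ≤ c) {v : ι → MonoidAlgebra k Γ} (hv : Ge ψ c v) :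
    Ge ψ c' v := fun i g hg => h.trans (hv i g hg)

lemma mul_coeff_ne {a b : MonoidAlgebra k Γ} {g : Γ} (h : (a * b).coeff g ≠ 0) :
    ∃ x y, a.coeff x ≠ 0 ∧ b.coeff y ≠ 0 ∧ g = x * y := by
  classical
  have h1 := MonoidAlgebra.support_coeff_mul_subset a b (Finsupp.mem_support_iff.2 h)
  obtain ⟨x, hx, y, hy, rfl⟩ := Finset.mem_mul.1 h1
  exact ⟨x, y, Finsupp.mem_support_iff.1 hx, Finsupp.mem_support_iff.1 hy, rfl⟩

/-- multiplying an element of degree `≥ a` with a vector of degree `≥ c` -/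
lemma ge_smul {a c : ℤ} {x : MonoidAlgebra k Γ} (hx : ∀ g, x.coeff g ≠ 0 → a ≤ deg ψ g)
    {v : ι → MonoidAlgebra k Γ} (hv : Ge ψ c v) : Ge ψ (a + c) (x • v) := by
  intro i g h
  obtain ⟨g1, g2, h1, h2, rfl⟩ := mul_coeff_ne (a := x) (b := v i) h
  rw [deg_mul]
  exact add_le_add (hx g1 h1) (hv i g2 h2)

/-- **shifts are seen on the basis** -/
lemma shift_of_basis [Fintype ι] [DecidableEq ι] {C : ℤ}
    {T : (ι → MonoidAlgebra k Γ) →ₗ[MonoidAlgebra k Γ] (κ → MonoidAlgebra k Γ)}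
    (h : ∀ i, Ge ψ C (T (Pi.single i 1))) : Shift ψ C T := by
  intro c v hv
  rw [map_expand T v]
  exact ge_sum _ fun i _ => ge_smul (hv i) (h i)

lemma Ge_single [DecidableEq ι] (i : ι) : Ge ψ 0 (Pi.single i 1 : ι → MonoidAlgebra k Γ) := by
  classical
  intro j g h
  by_cases e : j = i
  · subst e
    rw [Pi.single_eq_same, MonoidAlgebra.one_def, MonoidAlgebra.coeff_single,
      Finsupp.single_apply] at h
    by_cases e2 : (1 : Γ) = g
    · rw [← e2, deg_one]
    · rw [if_neg e2] at h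
      exact absurd rfl h
  · rw [Pi.single_eq_of_ne e] at h
    simp at h

lemma shift_basis [DecidableEq ι] {C : ℤ}
    {T : (ι → MonoidAlgebra k Γ) →ₗ[MonoidAlgebra k Γ] (κ → MonoidAlgebra k Γ)}
    (h : Shift ψ C T) (i : ι) : Ge ψ C (T (Pi.single i 1)) := by
  have := h 0 _ (Ge_single i)
  rwa [zero_add] at this

lemma shift_mono {C C' : ℤ} (h : C' ≤ C)
    {T : (ι → MonoidAlgebra k Γ) →ₗ[MonoidAlgebra k Γ] (κ → MonoidAlgebra k Γ)}
    (hT : Shift ψ C T) : Shift ψ C' T := fun c v hv =>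
  ge_mono (by linarith) (hT c v hv)

lemma shift_comp {C C' : ℤ}
    {S : (κ → MonoidAlgebra k Γ) →ₗ[MonoidAlgebra k Γ] (μ → MonoidAlgebra k Γ)}
    {T : (ι → MonoidAlgebra k Γ) →ₗ[MonoidAlgebra k Γ] (κ → MonoidAlgebra k Γ)}
    (hS : Shift ψ C S) (hT : Shift ψ C' T) : Shift ψ (C + C') (S ∘ₗ T) := by
  intro c v hv
  have := hS _ _ (hT _ _ hv)
  rw [show c + (C + C') = c + C' + C by ring]
  exact this

/-- a finite family of vectors has degrees bounded below -/
lemma exists_ge [Fintype ι] (ψ : Γ →* Multiplicative ℤ) (v : ι → MonoidAlgebra k Γ) :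
    ∃ C : ℤ, Ge ψ C v := by
  classical
  let s : Finset ℤ := Finset.univ.biUnion fun i : ι => (v i).coeff.support.image (deg ψ)
  obtain ⟨C, hC⟩ := s.bddBelow
  refine ⟨C, fun i g hg => hC ?_⟩
  exact Finset.mem_coe.2 (Finset.mem_biUnion.2 ⟨i, Finset.mem_univ _,
    Finset.mem_image.2 ⟨g, Finsupp.mem_support_iff.2 hg, rfl⟩⟩)

/-- every map of finitely generated free modules has a shift -/
lemma exists_shift [Fintype ι] [DecidableEq ι] [Fintype κ] (ψ : Γ →* Multiplicative ℤ)
    (T : (ι → MonoidAlgebra k Γ) →ₗ[MonoidAlgebra k Γ] (κ → MonoidAlgebra k Γ)) :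
    ∃ C : ℤ, Shift ψ C T := by
  classical
  choose C hC using fun i : ι => exists_ge ψ (T (Pi.single i 1))
  obtain ⟨D, hD⟩ := (Finset.univ.image C).bddBelow
  refine ⟨D, shift_of_basis fun i => ge_mono (hD ?_) (hC i)⟩
  exact Finset.mem_coe.2 (Finset.mem_image.2 ⟨i, Finset.mem_univ _, rfl⟩)

end

/-! ### adjoint maps -/

section

variable {ι κ μ : Type}

/-- the adjoint of a map of free modules -/
noncomputable def adj [Fintype κ] [DecidableEq ι]
    (T : (ι → MonoidAlgebra k Γ) →ₗ[MonoidAlgebra k Γ] (κ → MonoidAlgebra k Γ)) :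
    (κ → MonoidAlgebra k Γ) →ₗ[MonoidAlgebra k Γ] (ι → MonoidAlgebra k Γ) where
  toFun w i := ∑ j, w j * bar (T (Pi.single i 1) j)
  map_add' v w := by
    funext i
    simp only [Pi.add_apply, add_mul, Finset.sum_add_distrib]
  map_smul' a w := by
    funext i
    simp only [Pi.smul_apply, smul_eq_mul, RingHom.id_apply, mul_assoc, Finset.mul_sum]

lemma adj_apply [Fintype κ] [DecidableEq ι]
    (T : (ι → MonoidAlgebra k Γ) →ₗ[MonoidAlgebra k Γ] (κ → MonoidAlgebra k Γ))
    (w : κ → MonoidAlgebra k Γ) (i : ι) :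
    adj T w i = ∑ j, w j * bar (T (Pi.single i 1) j) := rfl

lemma adj_single [Fintype κ] [DecidableEq κ] [DecidableEq ι]
    (T : (ι → MonoidAlgebra k Γ) →ₗ[MonoidAlgebra k Γ] (κ → MonoidAlgebra k Γ)) (j : κ) (i : ι) :
    adj T (Pi.single j 1) i = bar (T (Pi.single i 1) j) := by
  rw [adj_apply, Finset.sum_eq_single j]
  · simp
  · intro l _ hl
    simp [Pi.single_eq_of_ne hl]
  · simp

lemma adj_adj [Fintype κ] [DecidableEq κ] [Fintype ι] [DecidableEq ι]
    (T : (ι → MonoidAlgebra k Γ) →ₗ[MonoidAlgebra k Γ] (κ → MonoidAlgebra k Γ)) :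
    adj (adj T) = T := by
  refine ext_basis fun i => ?_
  funext j
  rw [adj_single, adj_single, bar_bar]

lemma adj_comp [Fintype κ] [DecidableEq κ] [DecidableEq ι] [Fintype μ]
    [DecidableEq μ]
    (S : (κ → MonoidAlgebra k Γ) →ₗ[MonoidAlgebra k Γ] (μ → MonoidAlgebra k Γ))
    (T : (ι → MonoidAlgebra k Γ) →ₗ[MonoidAlgebra k Γ] (κ → MonoidAlgebra k Γ)) :
    adj (S ∘ₗ T) = adj T ∘ₗ adj S := by
  refine ext_basis fun l => ?_
  funext i
  rw [adj_single, LinearMap.comp_apply, LinearMap.comp_apply, adj_apply]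
  rw [map_apply S (T (Pi.single i 1)) l, bar_sum]
  refine Finset.sum_congr rfl fun j _ => ?_
  rw [bar_mul, adj_single]

lemma adj_id [Fintype ι] [DecidableEq ι] :
    adj (LinearMap.id : (ι → MonoidAlgebra k Γ) →ₗ[MonoidAlgebra k Γ] (ι → MonoidAlgebra k Γ)) =
      LinearMap.id := by
  refine ext_basis fun l => ?_
  funext i
  rw [adj_single]
  simp only [LinearMap.id_apply, Pi.single_apply]
  by_cases e : l = i
  · rw [if_pos e, if_pos e.symm, bar_one]
  · rw [if_neg e, if_neg (Ne.symm e), bar_zero]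

lemma adj_sub [Fintype κ] [DecidableEq ι]
    (S T : (ι → MonoidAlgebra k Γ) →ₗ[MonoidAlgebra k Γ] (κ → MonoidAlgebra k Γ)) :
    adj (S - T) = adj S - adj T := by
  refine LinearMap.ext fun w => ?_
  funext i
  simp only [adj_apply, LinearMap.sub_apply, Pi.sub_apply, bar_sub, mul_sub,
    Finset.sum_sub_distrib]

lemma adj_zero [Fintype κ] [DecidableEq ι] :
    adj (0 : (ι → MonoidAlgebra k Γ) →ₗ[MonoidAlgebra k Γ] (κ → MonoidAlgebra k Γ)) = 0 := by
  refine LinearMap.ext fun w => ?_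
  funext i
  simp [adj_apply, bar_zero]

lemma adj_inj [Fintype κ] [DecidableEq κ] [Fintype ι] [DecidableEq ι]
    {S T : (ι → MonoidAlgebra k Γ) →ₗ[MonoidAlgebra k Γ] (κ → MonoidAlgebra k Γ)}
    (h : adj S = adj T) : S = T := by
  rw [← adj_adj S, ← adj_adj T, h]

/-- **the adjoint has the opposite shift** -/
lemma shift_adj [Fintype κ] [DecidableEq κ] [DecidableEq ι] {ψ : Γ →* Multiplicative ℤ}
    {C : ℤ} {T : (ι → MonoidAlgebra k Γ) →ₗ[MonoidAlgebra k Γ] (κ → MonoidAlgebra k Γ)}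
    (h : Shift ψ C T) : Shift ψ⁻¹ C (adj T) := by
  refine shift_of_basis fun j => ?_
  intro i g hg
  rw [adj_single, bar_coeff] at hg
  have h1 := shift_basis h i j g⁻¹ hg
  rw [deg_inv] at h1
  rwa [deg_inv_char]

end

end Vale.Agent.P260.H708
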