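import Mathlib
import Vale.Agent.P260.H493.Spec
import Vale.Agent.P260.H708.Bar

/-!
P260 (helper708), module M6: `StmtPrimal` and `StmtDual`.
-/

namespace Vale.Agent.P260.H708

open Vale.Agent.P260.H493

/-! ### the beginning of the resolution -/

theorem stmtPrimal : StmtPrimal := by
  intro k Γ _ _ m P
  refine ⟨{ ι0 := Fin (P.r 0), ι1 := Fin (P.r 1), ι2 := Fin (P.r 2), d0 := P.d 0, d1 := P.d 1,
            ω := fun _ => 1, ε := P.ε, eps_smul := fun g v => ?_, eps_surj := P.eps_surj,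
            ex0 := P.ex0, ex1 := P.ex 0 (Nat.succ_pos m) }, fun ψ => ⟨fun h C => ?_, fun h C => ?_⟩⟩
  · rw [P.eps_smul, one_mul]
  · obtain ⟨h0, g0⟩ := h C
    refine ⟨Function.update 0 0 h0, fun i hi => ?_⟩
    obtain rfl : i = 0 := by omega
    have e : P.defect (Function.update 0 0 h0) 0 = LinearMap.id - P.d 0 ∘ₗ h0 := by
      unfold PDG.defect
      rw [Function.update_self]
    rw [e]
    exact g0
  · obtain ⟨h0, h1, g0, g1⟩ := h C
    refine ⟨Function.update (Function.update 0 1 h1) 0 h0, fun i hi => ?_⟩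
    have e0 : (Function.update (Function.update (0 : P.Hom1) 1 h1) 0 h0 : P.Hom1) 0 = h0 :=
      Function.update_self _ _ _
    have e1 : (Function.update (Function.update (0 : P.Hom1) 1 h1) 0 h0 : P.Hom1) 1 = h1 := by
      rw [Function.update_of_ne (by norm_num), Function.update_self]
    rcases (show i = 0 ∨ i = 1 by omega) with rfl | rfl
    · have e : P.defect (Function.update (Function.update 0 1 h1) 0 h0) 0 =
          LinearMap.id - P.d 0 ∘ₗ h0 := by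
        unfold PDG.defect
        rw [e0]
      rw [e]
      exact g0
    · have e : P.defect (Function.update (Function.update 0 1 h1) 0 h0) 1 =
          LinearMap.id - h0 ∘ₗ P.d 0 - P.d 1 ∘ₗ h1 := by
        change LinearMap.id -
          (Function.update (Function.update (0 : P.Hom1) 1 h1) 0 h0 : P.Hom1) 0 ∘ₗ P.d 0 -
          P.d 1 ∘ₗ (Function.update (Function.update (0 : P.Hom1) 1 h1) 0 h0 : P.Hom1) 1 = _
        rw [e0, e1]
      rw [e]
      exact g1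

/-! ### functionals and vectors -/

section

variable {k Γ : Type} [Field k] [Group Γ] {ι κ : Type} [Fintype κ] [DecidableEq κ]

/-- the functional of a vector -/
noncomputable def fn (w : κ → MonoidAlgebra k Γ) :
    (κ → MonoidAlgebra k Γ) →ₗ[MonoidAlgebra k Γ] MonoidAlgebra k Γ where
  toFun v := ∑ j, v j * bar (w j)
  map_add' v w := by
    simp only [Pi.add_apply, add_mul, Finset.sum_add_distrib]
  map_smul' a w := by
    simp only [Pi.smul_apply, smul_eq_mul, RingHom.id_apply, mul_assoc, Finset.mul_sum]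

omit [DecidableEq κ] in
lemma fn_apply (w v : κ → MonoidAlgebra k Γ) : fn w v = ∑ j, v j * bar (w j) := rfl

lemma fn_single (w : κ → MonoidAlgebra k Γ) (j : κ) : fn w (Pi.single j 1) = bar (w j) := by
  rw [fn_apply, Finset.sum_eq_single j]
  · simp
  · intro l _ hl
    simp [Pi.single_eq_of_ne hl]
  · simp

lemma fn_inj {v w : κ → MonoidAlgebra k Γ} (h : fn v = fn w) : v = w := by
  funext j
  rw [← bar_bar (v j), ← bar_bar (w j), ← fn_single v j, ← fn_single w j, h]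

lemma exists_fn (φ : (κ → MonoidAlgebra k Γ) →ₗ[MonoidAlgebra k Γ] MonoidAlgebra k Γ) :
    ∃ w, φ = fn w := by
  refine ⟨fun j => bar (φ (Pi.single j 1)), ext_basis fun j => ?_⟩
  rw [fn_single, bar_bar]

lemma fn_add (v w : κ → MonoidAlgebra k Γ) : fn (v + w) = fn v + fn w := by
  refine ext_basis fun j => ?_
  rw [LinearMap.add_apply, fn_single, fn_single, fn_single, Pi.add_apply, bar_add]

lemma fn_zero : fn (0 : κ → MonoidAlgebra k Γ) = 0 := by
  refine ext_basis fun j => ?_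
  rw [fn_single, Pi.zero_apply, bar_zero, LinearMap.zero_apply]

omit [DecidableEq κ] in
lemma fn_smul (c : k) (w v : κ → MonoidAlgebra k Γ) : fn (c • w) v = c • fn w v := by
  rw [fn_apply, fn_apply, Finset.smul_sum]
  refine Finset.sum_congr rfl fun j _ => ?_
  rw [Pi.smul_apply, bar_smul, mul_smul_comm]

omit [DecidableEq κ] in
lemma fn_adj [Fintype ι] [DecidableEq ι]
    (T : (ι → MonoidAlgebra k Γ) →ₗ[MonoidAlgebra k Γ] (κ → MonoidAlgebra k Γ))
    (w : κ → MonoidAlgebra k Γ) : fn (adj T w) = fn w ∘ₗ T := by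
  refine ext_basis fun i => ?_
  rw [fn_single, LinearMap.comp_apply, fn_apply, adj_apply, bar_sum]
  refine Finset.sum_congr rfl fun j _ => ?_
  rw [bar_mul, bar_bar]

end

/-! ### sums of index types -/

section

variable {k Γ : Type} [Field k] [Group Γ] {α β κ : Type}

/-- first half of a vector -/
def pr1 : (α ⊕ β → MonoidAlgebra k Γ) →ₗ[MonoidAlgebra k Γ] (α → MonoidAlgebra k Γ) where
  toFun v i := v (Sum.inl i)
  map_add' _ _ := rfl
  map_smul' _ _ := rfl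

/-- second half of a vector -/
def pr2 : (α ⊕ β → MonoidAlgebra k Γ) →ₗ[MonoidAlgebra k Γ] (β → MonoidAlgebra k Γ) where
  toFun v i := v (Sum.inr i)
  map_add' _ _ := rfl
  map_smul' _ _ := rfl

/-- a pair of maps -/
noncomputable def prS (S : (κ → MonoidAlgebra k Γ) →ₗ[MonoidAlgebra k Γ] (α → MonoidAlgebra k Γ))
    (T : (κ → MonoidAlgebra k Γ) →ₗ[MonoidAlgebra k Γ] (β → MonoidAlgebra k Γ)) :
    (κ → MonoidAlgebra k Γ) →ₗ[MonoidAlgebra k Γ] (α ⊕ β → MonoidAlgebra k Γ) where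
  toFun v := Sum.elim (S v) (T v)
  map_add' v w := by
    funext i
    cases i <;> simp
  map_smul' a w := by
    funext i
    cases i <;> simp

lemma pr1_prS (S : (κ → MonoidAlgebra k Γ) →ₗ[MonoidAlgebra k Γ] (α → MonoidAlgebra k Γ))
    (T : (κ → MonoidAlgebra k Γ) →ₗ[MonoidAlgebra k Γ] (β → MonoidAlgebra k Γ))
    (v : κ → MonoidAlgebra k Γ) : pr1 (prS S T v) = S v := rfl

lemma pr2_prS (S : (κ → MonoidAlgebra k Γ) →ₗ[MonoidAlgebra k Γ] (α → MonoidAlgebra k Γ))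
    (T : (κ → MonoidAlgebra k Γ) →ₗ[MonoidAlgebra k Γ] (β → MonoidAlgebra k Γ))
    (v : κ → MonoidAlgebra k Γ) : pr2 (prS S T v) = T v := rfl

lemma sum_ext {v w : α ⊕ β → MonoidAlgebra k Γ} (h1 : pr1 v = pr1 w) (h2 : pr2 v = pr2 w) :
    v = w := by
  funext i
  cases i with
  | inl i => exact congrFun h1 i
  | inr i => exact congrFun h2 i

lemma shift_pr1 (ψ : Γ →* Multiplicative ℤ) :
    Shift ψ 0 (pr1 : (α ⊕ β → MonoidAlgebra k Γ) →ₗ[MonoidAlgebra k Γ] _) := by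
  intro c v hv i g hg
  rw [add_zero]
  exact hv (Sum.inl i) g hg

lemma shift_in (ψ : Γ →* Multiplicative ℤ) :
    Shift ψ 0 (prS LinearMap.id 0 : (α → MonoidAlgebra k Γ) →ₗ[MonoidAlgebra k Γ]
      (α ⊕ β → MonoidAlgebra k Γ)) := by
  intro c v hv i g hg
  rw [add_zero]
  cases i with
  | inl i => exact hv i g hg
  | inr i => exact absurd rfl hg

end

/-! ### the dual complex -/

section

variable {k Γ : Type} [Field k] [Group Γ] {m : ℕ} (P : PDG k Γ (m + 1))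

lemma adj_pi_pi (w : Fin (P.r (m + 2)) → MonoidAlgebra k Γ) :
    adj P.π (adj P.π w) = adj P.π w := by
  have h : P.π ∘ₗ P.π = P.π := LinearMap.ext P.pi_pi
  rw [← LinearMap.comp_apply, ← adj_comp, h]

lemma adj_pi_d (a : Fin (P.r (m + 1)) → MonoidAlgebra k Γ) :
    adj P.π (adj (P.d (m + 1)) a) = adj (P.d (m + 1)) a := by
  have h : P.d (m + 1) ∘ₗ P.π = P.d (m + 1) := LinearMap.ext P.d_pi
  rw [← LinearMap.comp_apply, ← adj_comp, h]

lemma adj_d_d (a : Fin (P.r m) → MonoidAlgebra k Γ) :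
    adj (P.d (m + 1)) (adj (P.d m) a) = 0 := by
  have h : P.d m ∘ₗ P.d (m + 1) = 0 :=
    LinearMap.ext fun v => (P.ex m (Nat.lt_succ_self m) _).2 ⟨v, rfl⟩
  rw [← LinearMap.comp_apply, ← adj_comp, h, adj_zero, LinearMap.zero_apply]

/-- exactness of the dual complex -/
lemma co_vec {a : Fin (P.r (m + 1)) → MonoidAlgebra k Γ} (h : adj (P.d (m + 1)) a = 0) :
    ∃ a', a = adj (P.d m) a' := by
  have h1 : fn a ∘ₗ P.d (m + 1) = 0 := by rw [← fn_adj, h, fn_zero]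
  obtain ⟨χ, hχ⟩ := P.co m (Nat.lt_succ_self m) (fn a) h1
  obtain ⟨a', rfl⟩ := exists_fn χ
  refine ⟨a', fn_inj ?_⟩
  rw [fn_adj, hχ]

/-- the top cohomology, in terms of vectors -/
lemma co_top_vec : ∃ w0 : Fin (P.r (m + 2)) → MonoidAlgebra k Γ, adj P.π w0 = w0 ∧
    (¬ ∃ a, w0 = adj (P.d (m + 1)) a) ∧
    ∀ w, adj P.π w = w → ∃ (c : k) (a : _), w = c • w0 + adj (P.d (m + 1)) a := by
  obtain ⟨φ₀, h1, h2, h3⟩ := P.co_top
  obtain ⟨w0, rfl⟩ := exists_fn φ₀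
  refine ⟨w0, fn_inj ?_, ?_, ?_⟩
  · rw [fn_adj, h1]
  · rintro ⟨a, ha⟩
    refine h2 ⟨fn a, ?_⟩
    rw [← fn_adj, ← ha]
  · intro w hw
    obtain ⟨c, χ, h4⟩ := h3 (fn w) (by rw [← fn_adj, hw])
    obtain ⟨a, rfl⟩ := exists_fn χ
    refine ⟨c, a, fn_inj (LinearMap.ext fun v => ?_)⟩
    rw [h4 v, fn_add, LinearMap.add_apply, fn_smul, fn_adj, LinearMap.comp_apply]

/-- the class `c` of a vector in the top cohomology -/
def Rel (w0 w : Fin (P.r (m + 2)) → MonoidAlgebra k Γ) (c : k) : Prop :=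
  ∃ a, adj P.π w = c • w0 + adj (P.d (m + 1)) a

variable {P} {w0 : Fin (P.r (m + 2)) → MonoidAlgebra k Γ}

lemma adj_ksmul {ι κ : Type} [Fintype κ] [DecidableEq ι]
    (T : (ι → MonoidAlgebra k Γ) →ₗ[MonoidAlgebra k Γ] (κ → MonoidAlgebra k Γ)) (c : k)
    (w : κ → MonoidAlgebra k Γ) : adj T (c • w) = c • adj T w := by
  funext i
  rw [Pi.smul_apply, adj_apply, adj_apply, Finset.smul_sum]
  refine Finset.sum_congr rfl fun j _ => ?_
  rw [Pi.smul_apply, smul_mul_assoc]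

lemma Rel.uniq (h0 : ¬ ∃ a, w0 = adj (P.d (m + 1)) a)
    {w : Fin (P.r (m + 2)) → MonoidAlgebra k Γ} {c c' : k} (h : Rel P w0 w c)
    (h' : Rel P w0 w c') : c = c' := by
  by_contra hne
  obtain ⟨a, ha⟩ := h
  obtain ⟨a', ha'⟩ := h'
  refine h0 ⟨(c - c')⁻¹ • (a' - a), ?_⟩
  have h1 : (c - c') • w0 = adj (P.d (m + 1)) (a' - a) := by
    rw [map_sub, sub_smul, sub_eq_sub_iff_add_eq_add, ← ha, ha']
    exact add_comm _ _
  rw [adj_ksmul, ← h1, inv_smul_smul₀ (sub_ne_zero.2 hne)]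

lemma Rel.add {v w : Fin (P.r (m + 2)) → MonoidAlgebra k Γ} {c c' : k} (h : Rel P w0 v c)
    (h' : Rel P w0 w c') : Rel P w0 (v + w) (c + c') := by
  obtain ⟨a, ha⟩ := h
  obtain ⟨a', ha'⟩ := h'
  refine ⟨a + a', ?_⟩
  rw [map_add, map_add, ha, ha', add_smul]
  abel

lemma Rel.smul {w : Fin (P.r (m + 2)) → MonoidAlgebra k Γ} {c : k} (r : k)
    (h : Rel P w0 w c) : Rel P w0 (r • w) (r * c) := by
  obtain ⟨a, ha⟩ := h
  refine ⟨r • a, ?_⟩
  rw [adj_ksmul, adj_ksmul, ha, smul_add, smul_smul]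

lemma Rel.exists (h3 : ∀ w, adj P.π w = w →
    ∃ (c : k) (a : _), w = c • w0 + adj (P.d (m + 1)) a)
    (w : Fin (P.r (m + 2)) → MonoidAlgebra k Γ) : ∃ c, Rel P w0 w c := by
  obtain ⟨c, a, h⟩ := h3 (adj P.π w) (adj_pi_pi P w)
  exact ⟨c, a, h⟩

lemma Rel.gsmul {v : Fin (P.r (m + 2)) → MonoidAlgebra k Γ} {c ω : k} {x : MonoidAlgebra k Γ}
    (h1 : adj P.π w0 = w0) (hω : Rel P w0 (x • w0) ω) (h : Rel P w0 v c) :
    Rel P w0 (x • v) (ω * c) := by
  obtain ⟨a, ha⟩ := h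
  obtain ⟨a', ha'⟩ := hω
  rw [map_smul, h1] at ha'
  refine ⟨c • a' + x • a, ?_⟩
  rw [map_smul, ha, smul_add, smul_comm x c w0, ha', map_add, adj_ksmul, map_smul, smul_add,
    smul_smul, mul_comm ω c]
  exact add_assoc _ _ _

end

/-! ### the `Res3` of the dual complex -/

section

variable {k Γ : Type} [Field k] [Group Γ] {m : ℕ} (P : PDG k Γ (m + 1))

/-- the differential `F_{m+1} ⊕ F_{m+2} → F_{m+2}` -/
noncomputable def dd0 : (Fin (P.r (m + 1)) ⊕ Fin (P.r (m + 2)) → MonoidAlgebra k Γ)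
    →ₗ[MonoidAlgebra k Γ] (Fin (P.r (m + 2)) → MonoidAlgebra k Γ) :=
  adj (P.d (m + 1)) ∘ₗ pr1 + (LinearMap.id - adj P.π) ∘ₗ pr2

/-- the differential `F_m ⊕ F_{m+2} → F_{m+1} ⊕ F_{m+2}` -/
noncomputable def dd1 : (Fin (P.r m) ⊕ Fin (P.r (m + 2)) → MonoidAlgebra k Γ)
    →ₗ[MonoidAlgebra k Γ] (Fin (P.r (m + 1)) ⊕ Fin (P.r (m + 2)) → MonoidAlgebra k Γ) :=
  prS (adj (P.d m) ∘ₗ pr1) (adj P.π ∘ₗ pr2)

lemma dd0_apply (v) : dd0 P v = adj (P.d (m + 1)) (pr1 v) + (pr2 v - adj P.π (pr2 v)) := rfl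

lemma pi_dd0 (v) : adj P.π (dd0 P v) = adj (P.d (m + 1)) (pr1 v) := by
  rw [dd0_apply, map_add, map_sub, adj_pi_d, adj_pi_pi, sub_self, add_zero]

lemma dd_ex1 (v) : dd0 P v = 0 ↔ ∃ w, dd1 P w = v := by
  constructor
  · intro h
    have h1 : adj (P.d (m + 1)) (pr1 v) = 0 := by rw [← pi_dd0, h, map_zero]
    have h2 : pr2 v = adj P.π (pr2 v) := by
      have h3 := dd0_apply P v
      rw [h, h1, zero_add] at h3
      exact (sub_eq_zero.1 h3.symm)
    obtain ⟨a', ha⟩ := co_vec P h1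
    refine ⟨Sum.elim a' (pr2 v), sum_ext ?_ ?_⟩
    · exact ha.symm
    · exact h2.symm
  · rintro ⟨w, rfl⟩
    rw [dd0_apply]
    unfold dd1
    rw [pr1_prS, pr2_prS, LinearMap.comp_apply, LinearMap.comp_apply, adj_d_d, adj_pi_pi, sub_self,
      add_zero]

end

end Vale.Agent.P260.H708
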