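import Mathlib
import Vale.Agent.P260.H708.Dual

/-!
P260 (helper708), module M6: `StmtDual`.
-/

namespace Vale.Agent.P260.H708

open Vale.Agent.P260.H493

section

variable {k Γ : Type} [Field k] [Group Γ] {m : ℕ}

/-- the `Res3` of the dual complex -/
lemma exists_dualRes (P : PDG k Γ (m + 1)) : ∃ R : Res3 k Γ,
    ∀ ψ : Γ →* Multiplicative ℤ,
      (LowA R ψ → ∀ C : ℤ, ∃ h0 : (Fin (P.r (m + 2)) → MonoidAlgebra k Γ) →ₗ[MonoidAlgebra k Γ]
        (Fin (P.r (m + 1)) ⊕ Fin (P.r (m + 2)) → MonoidAlgebra k Γ),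
        Shift ψ C (LinearMap.id - dd0 P ∘ₗ h0)) ∧
      (LowB R ψ → ∀ C : ℤ, ∃ (h0 : (Fin (P.r (m + 2)) → MonoidAlgebra k Γ)
        →ₗ[MonoidAlgebra k Γ] (Fin (P.r (m + 1)) ⊕ Fin (P.r (m + 2)) → MonoidAlgebra k Γ))
        (h1 : (Fin (P.r (m + 1)) ⊕ Fin (P.r (m + 2)) → MonoidAlgebra k Γ)
        →ₗ[MonoidAlgebra k Γ] (Fin (P.r m) ⊕ Fin (P.r (m + 2)) → MonoidAlgebra k Γ)),
        Shift ψ C (LinearMap.id - dd0 P ∘ₗ h0) ∧
        Shift ψ C (LinearMap.id - h0 ∘ₗ dd0 P - dd1 P ∘ₗ h1)) := by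
  obtain ⟨w0, h1, h2, h3⟩ := co_top_vec P
  choose f hf using Rel.exists h3
  let ε : (Fin (P.r (m + 2)) → MonoidAlgebra k Γ) →ₗ[k] k :=
    { toFun := f
      map_add' := fun v w => Rel.uniq h2 (hf _) ((hf v).add (hf w))
      map_smul' := fun r v => Rel.uniq h2 (hf _) ((hf v).smul r) }
  have hε : ∀ {v c}, Rel P w0 v c → ε v = c := fun {v c} h => Rel.uniq h2 (hf v) h
  refine ⟨{ ι0 := Fin (P.r (m + 2)), ι1 := Fin (P.r (m + 1)) ⊕ Fin (P.r (m + 2)),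
            ι2 := Fin (P.r m) ⊕ Fin (P.r (m + 2)), d0 := dd0 P, d1 := dd1 P,
            ω := fun g => f (MonoidAlgebra.single g (1 : k) • w0), ε := ε,
            eps_smul := fun g v => hε (Rel.gsmul h1 (hf _) (hf v)),
            eps_surj := fun c => ⟨c • w0, hε ⟨0, ?_⟩⟩,
            ex0 := fun v => ⟨fun h => ?_, fun h => ?_⟩,
            ex1 := dd_ex1 P }, fun ψ => ⟨fun h => h, fun h => h⟩⟩
  · rw [adj_ksmul, h1, map_zero, add_zero]
  · obtain ⟨a, ha⟩ := hf v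
    have h4 : f v = 0 := h
    rw [h4, zero_smul, zero_add] at ha
    refine ⟨Sum.elim a v, ?_⟩
    rw [dd0_apply]
    have e1 : (pr1 (Sum.elim a v) : Fin (P.r (m + 1)) → MonoidAlgebra k Γ) = a := rfl
    have e2 : (pr2 (Sum.elim a v) : Fin (P.r (m + 2)) → MonoidAlgebra k Γ) = v := rfl
    rw [e1, e2, ha]
    exact add_sub_cancel _ _
  · obtain ⟨w, rfl⟩ := h
    refine hε ⟨pr1 w, ?_⟩
    rw [pi_dd0, zero_smul, zero_add]

/-- the top map of the homotopy -/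
noncomputable def topH (P : PDG k Γ (m + 1)) (h0 : (Fin (P.r (m + 2)) → MonoidAlgebra k Γ)
    →ₗ[MonoidAlgebra k Γ] (Fin (P.r (m + 1)) ⊕ Fin (P.r (m + 2)) → MonoidAlgebra k Γ)) :
    (Fin (P.r (m + 1)) → MonoidAlgebra k Γ) →ₗ[MonoidAlgebra k Γ]
      (Fin (P.r (m + 2)) → MonoidAlgebra k Γ) :=
  adj (pr1 ∘ₗ h0)

lemma topH_spec (P : PDG k Γ (m + 1)) (h0 : (Fin (P.r (m + 2)) → MonoidAlgebra k Γ)
    →ₗ[MonoidAlgebra k Γ] (Fin (P.r (m + 1)) ⊕ Fin (P.r (m + 2)) → MonoidAlgebra k Γ)) :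
    P.π - P.π ∘ₗ topH P h0 ∘ₗ P.d (m + 1) =
      P.π ∘ₗ adj (LinearMap.id - dd0 P ∘ₗ h0) ∘ₗ P.π := by
  have h1 : adj P.π ∘ₗ (LinearMap.id - dd0 P ∘ₗ h0) =
      adj P.π - adj (P.d (m + 1)) ∘ₗ (pr1 ∘ₗ h0) := by
    refine LinearMap.ext fun v => ?_
    simp only [LinearMap.comp_apply, LinearMap.sub_apply, LinearMap.id_apply, map_sub, pi_dd0]
  have h2 : adj (LinearMap.id - dd0 P ∘ₗ h0) ∘ₗ P.π = P.π - topH P h0 ∘ₗ P.d (m + 1) := by
    have h3 : adj (adj P.π ∘ₗ (LinearMap.id - dd0 P ∘ₗ h0)) =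
      adj (adj P.π - adj (P.d (m + 1)) ∘ₗ (pr1 ∘ₗ h0)) := by rw [h1]
    rw [adj_comp (adj P.π), adj_sub (adj P.π), adj_comp (adj (P.d (m + 1))), adj_adj, adj_adj] at h3
    exact h3
  rw [h2]
  refine LinearMap.ext fun v => ?_
  simp only [LinearMap.comp_apply, LinearMap.sub_apply, map_sub, P.pi_pi]

/-- the second map of the homotopy -/
noncomputable def subH (P : PDG k Γ (m + 1)) (h1 : (Fin (P.r (m + 1)) ⊕ Fin (P.r (m + 2)) →
    MonoidAlgebra k Γ) →ₗ[MonoidAlgebra k Γ] (Fin (P.r m) ⊕ Fin (P.r (m + 2)) →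
    MonoidAlgebra k Γ)) :
    (Fin (P.r m) → MonoidAlgebra k Γ) →ₗ[MonoidAlgebra k Γ]
      (Fin (P.r (m + 1)) → MonoidAlgebra k Γ) :=
  adj (pr1 ∘ₗ h1 ∘ₗ prS LinearMap.id 0)

lemma subH_spec (P : PDG k Γ (m + 1)) (h0 : (Fin (P.r (m + 2)) → MonoidAlgebra k Γ)
    →ₗ[MonoidAlgebra k Γ] (Fin (P.r (m + 1)) ⊕ Fin (P.r (m + 2)) → MonoidAlgebra k Γ))
    (h1 : (Fin (P.r (m + 1)) ⊕ Fin (P.r (m + 2)) →
    MonoidAlgebra k Γ) →ₗ[MonoidAlgebra k Γ] (Fin (P.r m) ⊕ Fin (P.r (m + 2)) →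
    MonoidAlgebra k Γ)) :
    LinearMap.id - subH P h1 ∘ₗ P.d m - P.d (m + 1) ∘ₗ topH P h0 =
      adj (pr1 ∘ₗ (LinearMap.id - h0 ∘ₗ dd0 P - dd1 P ∘ₗ h1) ∘ₗ prS LinearMap.id 0) := by
  have e1 : pr1 ∘ₗ (LinearMap.id - h0 ∘ₗ dd0 P - dd1 P ∘ₗ h1) ∘ₗ prS LinearMap.id 0 =
      LinearMap.id - (pr1 ∘ₗ h0) ∘ₗ adj (P.d (m + 1)) -
        adj (P.d m) ∘ₗ (pr1 ∘ₗ h1 ∘ₗ prS LinearMap.id 0) := by
    refine LinearMap.ext fun v => ?_
    have h2 : dd0 P (prS LinearMap.id 0 v) = adj (P.d (m + 1)) v := by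
      rw [dd0_apply, pr1_prS, pr2_prS, LinearMap.id_apply, LinearMap.zero_apply, map_zero,
        sub_zero, add_zero]
    simp only [LinearMap.comp_apply, LinearMap.sub_apply, LinearMap.id_apply, map_sub, h2,
      pr1_prS]
    rfl
  rw [e1, adj_sub, adj_sub, adj_comp (pr1 ∘ₗ h0) (adj (P.d (m + 1))),
    adj_comp (adj (P.d m)) (pr1 ∘ₗ h1 ∘ₗ prS LinearMap.id 0), adj_adj, adj_adj, adj_id]
  exact sub_right_comm _ _ _

end

theorem stmtDual : StmtDual := by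
  intro k Γ _ _ m P
  obtain ⟨R, hR⟩ := exists_dualRes P
  refine ⟨R, fun ψ => ⟨fun h C => ?_, fun h C => ?_⟩⟩
  · obtain ⟨K, hK⟩ := exists_shift ψ⁻¹ P.π
    obtain ⟨h0, g0⟩ := (hR ψ).1 h (C - 2 * K)
    refine ⟨Function.update 0 (m + 1) (topH P h0), fun i h1 h2 => absurd h2 (by omega), ?_⟩
    have e : P.topDefect (Function.update 0 (m + 1) (topH P h0)) =
        P.π - P.π ∘ₗ topH P h0 ∘ₗ P.d (m + 1) := by
      unfold PDG.topDefect
      rw [Function.update_self]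
    rw [e, topH_spec]
    exact shift_mono (by ring_nf; exact le_refl _)
      (shift_comp hK (shift_comp (shift_adj g0) hK))
  · obtain ⟨K, hK⟩ := exists_shift ψ⁻¹ P.π
    obtain ⟨h0, h1, g0, g1⟩ := (hR ψ).2 h (max C (C - 2 * K))
    have e0 : (Function.update (Function.update (0 : P.Hom1) m (subH P h1)) (m + 1)
        (topH P h0) : P.Hom1) (m + 1) = topH P h0 := Function.update_self _ _ _
    have e1 : (Function.update (Function.update (0 : P.Hom1) m (subH P h1)) (m + 1)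
        (topH P h0) : P.Hom1) m = subH P h1 := by
      rw [Function.update_of_ne (by omega), Function.update_self]
    refine ⟨Function.update (Function.update 0 m (subH P h1)) (m + 1) (topH P h0),
      fun i h3 h4 => ?_, ?_⟩
    · obtain rfl : i = m + 1 := by omega
      have e : P.defect (Function.update (Function.update 0 m (subH P h1)) (m + 1) (topH P h0))
          (m + 1) = LinearMap.id - subH P h1 ∘ₗ P.d m - P.d (m + 1) ∘ₗ topH P h0 := by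
        change LinearMap.id -
          (Function.update (Function.update (0 : P.Hom1) m (subH P h1)) (m + 1)
            (topH P h0) : P.Hom1) m ∘ₗ P.d m -
          P.d (m + 1) ∘ₗ (Function.update (Function.update (0 : P.Hom1) m (subH P h1)) (m + 1)
            (topH P h0) : P.Hom1) (m + 1) = _
        rw [e0, e1]
      rw [e, subH_spec]
      refine shift_mono ?_ (shift_adj (shift_comp (shift_pr1 ψ) (shift_comp g1 (shift_in ψ))))
      have := le_max_left C (C - 2 * K)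
      linarith
    · have e : P.topDefect (Function.update (Function.update 0 m (subH P h1)) (m + 1)
          (topH P h0)) = P.π - P.π ∘ₗ topH P h0 ∘ₗ P.d (m + 1) := by
        unfold PDG.topDefect
        rw [e0]
      rw [e, topH_spec]
      refine shift_mono ?_ (shift_comp hK (shift_comp (shift_adj g0) hK))
      have := le_max_right C (C - 2 * K)
      linarith

end Vale.Agent.P260.H708
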